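import Vale.Agent.P039.Map

/-!
From the plane map to the three permutations of the white vertices, and back to a Hamiltonian
cycle.
-/

namespace Vale.Agent.P039

open Equiv Equiv.Perm

/-- A permutation along edges with one orbit gives a Hamiltonian cycle. -/
theorem hamiltonian_of_perm {V : Type*} [Fintype V] [DecidableEq V] {G : SimpleGraph V}
    (hn : 3 ≤ Fintype.card V) (F : Perm V) (hadj : ∀ v, G.Adj v (F v))
    (hcyc : ∀ a b, F.SameCycle a b) : G.IsHamiltonian := by
  intro _
  obtain ⟨v⟩ := (Fintype.card_pos_iff.1 (by omega) : Nonempty V)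
  have hon : F.IsCycleOn ((Finset.univ : Finset V) : Set V) :=
    ⟨by simpa using F.bijective.bijOn_univ, fun a _ b _ => hcyc a b⟩
  have hmod : ∀ {i j : ℕ}, (F ^ i) v = (F ^ j) v → i ≡ j [MOD Fintype.card V] := fun e =>
    (hon.pow_apply_eq_pow_apply (Finset.mem_univ v)).1 e
  have hwalk : ∀ i, ∃ q : G.Walk (F v) ((F ^ i) (F v)),
      q.support = (List.range (i + 1)).map (fun j => (F ^ j) (F v)) ∧
      ∀ e ∈ q.edges, ∃ j < i, e = s((F ^ j) (F v), (F ^ (j + 1)) (F v)) := by
    intro i
    induction i with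
    | zero => exact ⟨(SimpleGraph.Walk.nil : G.Walk (F v) (F v)).copy rfl (by simp), by simp, by simp⟩
    | succ i ih =>
      obtain ⟨q, hq, he⟩ := ih
      have ha : G.Adj ((F ^ i) (F v)) ((F ^ (i + 1)) (F v)) := by
        rw [pow_succ', Perm.mul_apply]; exact hadj _
      refine ⟨q.concat ha, ?_, fun e hm => ?_⟩
      · rw [SimpleGraph.Walk.support_concat, hq, List.range_succ (n := i + 1), List.map_append]
        simp [List.concat_eq_append]
      · rw [SimpleGraph.Walk.edges_concat, List.concat_eq_append, List.mem_append,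
          List.mem_singleton] at hm
        rcases hm with hm | hm
        · obtain ⟨j, hj, rfl⟩ := he e hm
          exact ⟨j, by omega, rfl⟩
        · exact ⟨i, by omega, hm⟩
  obtain ⟨k, hk⟩ : ∃ k, Fintype.card V = k + 1 := ⟨Fintype.card V - 1, by omega⟩
  obtain ⟨q, hq, he⟩ := hwalk k
  have hend : (F ^ k) (F v) = v := by
    rw [← Perm.mul_apply, ← pow_succ, ← hk]
    exact hon.pow_card_apply (Finset.mem_univ v)
  have hpath : q.IsPath := by
    rw [SimpleGraph.Walk.isPath_def, hq]
    refine List.Nodup.map_on (fun i hi j hj e => ?_) List.nodup_range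
    rw [List.mem_range] at hi hj
    have := hmod (i := i + 1) (j := j + 1) (by rw [pow_succ, pow_succ]; exact e)
    exact ((Nat.ModEq.add_right_cancel' 1 this).eq_of_lt_of_lt (by omega) (by omega))
  refine ⟨v, SimpleGraph.Walk.cons (hadj v) (q.copy rfl hend), ?_⟩
  rw [SimpleGraph.Walk.isHamiltonianCycle_iff_isCycle_and_length_eq]
  have hlen : q.length = k := by
    have := congrArg List.length hq
    simp at this
    omega
  refine ⟨(SimpleGraph.Walk.cons_isCycle_iff _ _).2 ⟨by simpa using hpath, fun hm => ?_⟩,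
    by simp [hlen, hk]⟩
  rw [SimpleGraph.Walk.edges_copy] at hm
  obtain ⟨j, hj, e⟩ := he _ hm
  rw [Sym2.eq_iff] at e
  have p1 : ∀ i, (F ^ i) (F v) = (F ^ (i + 1)) v := fun i => by rw [pow_succ]; rfl
  rw [p1, p1] at e
  rcases e with ⟨e1, -⟩ | ⟨e1, e2⟩
  · have := hmod (i := 0) (j := j + 1) (by simpa using e1)
    exact absurd (this.eq_of_lt_of_lt (by omega) (by omega)) (by omega)
  · have h2 := hmod (i := 1) (j := j + 1) (by simpa using e2)
    have := h2.eq_of_lt_of_lt (by omega) (by omega)
    obtain rfl : j = 0 := by omega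
    have := hmod (i := 0) (j := 2) (by simpa using e1)
    exact absurd (this.eq_of_lt_of_lt (by omega) (by omega)) (by omega)

theorem mem_of_apply_mem {α : Type*} [Finite α] {f : Perm α} {S : Set α}
    (h : ∀ u ∈ S, f u ∈ S) {u : α} (hu : f u ∈ S) : u ∈ S := by
  obtain ⟨i, hi⟩ := SameCycle.exists_nat_pow_eq
    (sameCycle_apply_left.2 (SameCycle.refl f u) : f.SameCycle (f u) u)
  rw [← hi]
  clear hi
  induction i with
  | zero => exact hu
  | succ i ih => rw [pow_succ', Perm.mul_apply]; exact h _ ih

variable {V : Type*} [Fintype V] [DecidableEq V] {G : SimpleGraph V} [DecidableRel G.Adj]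
  {ρ : Perm G.Dart} {col : V → Bool} {C : G.Dart → Prop}

/-- The face of the dart is a quadrilateral. -/
def IsQuad (ρ : Perm G.Dart) (d : G.Dart) : Prop := (faceStep ρ ^ 4) d = d

/-- A face of `C` larger than a quadrilateral. -/
def Big (ρ : Perm G.Dart) (C : G.Dart → Prop) (d : G.Dart) : Prop := C d ∧ ¬ IsQuad ρ d

namespace Setup

variable (h : Setup G ρ col C)
include h

/-- The successor permutation of the faces in `C`. -/
noncomputable def nP : Perm V := ⟨h.nxt, h.prv, h.prv_nxt, h.nxt_prv⟩

/-- The matching permutation. -/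
noncomputable def oP : Perm V := ⟨h.opp, h.opp, h.opp_opp, h.opp_opp⟩

theorem col_nxt (v : V) : col (h.nxt v) = !col v := h.col_adj (h.adj_nxt v)
theorem col_prv (v : V) : col (h.prv v) = !col v := h.col_adj (h.adj_prv v)
theorem col_opp (v : V) : col (h.opp v) = !col v := h.col_adj (h.adj_opp v)

/-- Around a face of `C`. -/
noncomputable def px : Perm {v : V // col v = false} :=
  (h.nP * h.nP).subtypePerm fun v => by simp [nP, h.col_nxt]

/-- Around a face met at the white vertices by the edges entering from a face of `C`. -/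
noncomputable def py : Perm {v : V // col v = false} :=
  (h.oP * h.nP⁻¹).subtypePerm fun v => by simp [nP, oP, h.col_opp, h.col_prv]

/-- Around the other faces. -/
noncomputable def pz : Perm {v : V // col v = false} :=
  (h.nP⁻¹ * h.oP).subtypePerm fun v => by simp [nP, oP, h.col_opp, h.col_prv]

theorem px_apply (w : {v : V // col v = false}) : (h.px w).1 = h.nxt (h.nxt w.1) := rfl
theorem py_apply (w : {v : V // col v = false}) : (h.py w).1 = h.opp (h.prv w.1) := rfl
theorem pz_apply (w : {v : V // col v = false}) : (h.pz w).1 = h.prv (h.opp w.1) := rfl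

theorem pxzy : h.px * h.pz * h.py = 1 := by
  ext w
  simp [Perm.mul_apply, h.px_apply, h.pz_apply, h.py_apply, h.opp_opp, h.nxt_prv]

/-- The target of the labelling of darts by cycles. -/
abbrev Lab : Type _ :=
  Quotient (cyc h.px) ⊕ (Quotient (cyc h.py) ⊕ Quotient (cyc h.pz))

/-- The cycle of a dart. -/
noncomputable def lab (d : G.Dart) : h.Lab :=
  open Classical in
  if d = h.c d.fst then
    (if hv : col d.fst = false then Sum.inl (Quotient.mk _ ⟨d.fst, hv⟩)
    else Sum.inl (Quotient.mk _ ⟨h.nxt d.fst, by simp [h.col_nxt, hv]⟩))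
  else if d = h.R d.fst then
    (if hv : col d.fst = false then Sum.inr (Sum.inr (Quotient.mk _ ⟨d.fst, hv⟩))
    else Sum.inr (Sum.inl (Quotient.mk _ ⟨h.opp d.fst, by simp [h.col_opp, hv]⟩)))
  else
    (if hv : col d.fst = false then Sum.inr (Sum.inl (Quotient.mk _ ⟨d.fst, hv⟩))
    else Sum.inr (Sum.inr (Quotient.mk _ ⟨h.prv d.fst, by simp [h.col_prv, hv]⟩)))

theorem lab_c (v : V) : h.lab (h.c v) =
    if hv : col v = false then Sum.inl (Quotient.mk _ ⟨v, hv⟩)
    else Sum.inl (Quotient.mk _ ⟨h.nxt v, by simp [h.col_nxt, hv]⟩) := by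
  unfold lab
  simp only [h.c_fst, ↓reduceIte]

theorem lab_R (v : V) : h.lab (h.R v) =
    if hv : col v = false then Sum.inr (Sum.inr (Quotient.mk _ ⟨v, hv⟩))
    else Sum.inr (Sum.inl (Quotient.mk _ ⟨h.opp v, by simp [h.col_opp, hv]⟩)) := by
  unfold lab
  simp only [h.R_fst, (h.rho_orbit v).2.1, ↓reduceIte]

theorem lab_I (v : V) : h.lab (h.I v) =
    if hv : col v = false then Sum.inr (Sum.inl (Quotient.mk _ ⟨v, hv⟩))
    else Sum.inr (Sum.inr (Quotient.mk _ ⟨h.prv v, by simp [h.col_prv, hv]⟩)) := by
  unfold lab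
  simp only [h.I_fst, (h.rho_orbit v).2.2.1, (h.rho_orbit v).2.2.2.1, ↓reduceIte]

theorem lab_step (d : G.Dart) : h.lab (faceStep ρ d) = h.lab d := by
  rcases (h.rho_orbit d.fst).2.2.2.2 d rfl with e | e | e <;> rw [e]
  · rw [h.step_c, h.lab_c, h.lab_c]
    by_cases hv : col d.fst = false
    · rw [dif_neg (by simp [h.col_nxt, hv]), dif_pos hv]
      exact congrArg Sum.inl (Quotient.sound (SameCycle.symm (rel_step (f := h.px))))
    · rw [dif_pos (by simp [h.col_nxt, hv]), dif_neg hv]
  · rw [h.step_R, h.lab_I, h.lab_R]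
    by_cases hv : col d.fst = false
    · rw [dif_neg (by simp [h.col_opp, hv]), dif_pos hv]
      exact congrArg (Sum.inr ∘ Sum.inr) (Quotient.sound (SameCycle.symm (rel_step (f := h.pz))))
    · rw [dif_pos (by simp [h.col_opp, hv]), dif_neg hv]
  · rw [h.step_I, h.lab_R, h.lab_I]
    by_cases hv : col d.fst = false
    · rw [dif_neg (by simp [h.col_prv, hv]), dif_pos hv]
      exact congrArg (Sum.inr ∘ Sum.inl) (Quotient.sound (SameCycle.symm (rel_step (f := h.py))))
    · rw [dif_pos (by simp [h.col_prv, hv]), dif_neg hv]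

theorem lab_eq {d e : G.Dart} (hde : SameFace ρ d e) : h.lab d = h.lab e :=
  (le_of_step (f := faceStep ρ) (E := Setoid.ker h.lab) fun u => (h.lab_step u).symm) hde

theorem face_c {u v : {v : V // col v = false}} (huv : h.px.SameCycle u v) :
    SameFace ρ (h.c u.1) (h.c v.1) := by
  refine le_of_step (f := h.px) (E := Setoid.comap (fun w : {v : V // col v = false} => h.c w.1)
    (cyc (faceStep ρ))) (fun w => ?_) huv
  show (faceStep ρ).SameCycle (h.c w.1) (h.c (h.px w).1)
  rw [h.px_apply, ← h.step_c, ← h.step_c]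
  exact rel_step.trans rel_step

theorem face_I {u v : {v : V // col v = false}} (huv : h.py.SameCycle u v) :
    SameFace ρ (h.I u.1) (h.I v.1) := by
  refine le_of_step (f := h.py) (E := Setoid.comap (fun w : {v : V // col v = false} => h.I w.1)
    (cyc (faceStep ρ))) (fun w => ?_) huv
  show (faceStep ρ).SameCycle (h.I w.1) (h.I (h.py w).1)
  rw [h.py_apply, ← h.step_R, ← h.step_I]
  exact rel_step.trans rel_step

theorem face_R {u v : {v : V // col v = false}} (huv : h.pz.SameCycle u v) :
    SameFace ρ (h.R u.1) (h.R v.1) := by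
  refine le_of_step (f := h.pz) (E := Setoid.comap (fun w : {v : V // col v = false} => h.R w.1)
    (cyc (faceStep ρ))) (fun w => ?_) huv
  show (faceStep ρ).SameCycle (h.R w.1) (h.R (h.pz w).1)
  rw [h.pz_apply, ← h.step_I, ← h.step_R]
  exact rel_step.trans rel_step

theorem numFaces_eq : numFaces ρ = nc h.px + (nc h.py + nc h.pz) := by
  classical
  have e : Quotient (cyc (faceStep ρ)) ≃ h.Lab :=
    { toFun := Quotient.lift h.lab fun _ _ hab => h.lab_eq hab
      invFun := Sum.elim (Quotient.map (fun w => h.c w.1) fun _ _ huv => h.face_c huv)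
        (Sum.elim (Quotient.map (fun w => h.I w.1) fun _ _ huv => h.face_I huv)
          (Quotient.map (fun w => h.R w.1) fun _ _ huv => h.face_R huv))
      left_inv := fun q => by
        induction q using Quotient.ind with
        | _ d =>
          rw [Quotient.lift_mk]
          rcases (h.rho_orbit d.fst).2.2.2.2 d rfl with e | e | e <;> rw [e]
          · rw [h.lab_c]
            split
            · rfl
            · refine Quotient.sound (SameCycle.symm ?_)
              show (faceStep ρ).SameCycle (h.c d.fst) (h.c (h.nxt d.fst))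
              rw [← h.step_c]; exact rel_step
          · rw [h.lab_R]
            split
            · rfl
            · refine Quotient.sound (SameCycle.symm ?_)
              show (faceStep ρ).SameCycle (h.R d.fst) (h.I (h.opp d.fst))
              rw [← h.step_R]; exact rel_step
          · rw [h.lab_I]
            split
            · rfl
            · refine Quotient.sound (SameCycle.symm ?_)
              show (faceStep ρ).SameCycle (h.I d.fst) (h.R (h.prv d.fst))
              rw [← h.step_I]; exact rel_step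
      right_inv := fun q => by
        rcases q with q | q | q <;> induction q using Quotient.ind with
        | _ w =>
          first
          | exact (h.lab_c w.1).trans (dif_pos w.2)
          | exact (h.lab_I w.1).trans (dif_pos w.2)
          | exact (h.lab_R w.1).trans (dif_pos w.2) }
  rw [numFaces, Nat.card_congr e]
  simp [Lab, nc, ncl, Nat.card_sum]

theorem card_white : Fintype.card V = 2 * Nat.card {v : V // col v = false} ∧
    G.edgeFinset.card = 3 * Nat.card {v : V // col v = false} := by
  have e : {v : V // col v = false} ≃ {v : V // ¬ col v = false} :=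
    h.nP.subtypeEquiv fun v => by simp [nP, h.col_nxt]
  have h1 : Fintype.card V = 2 * Nat.card {v : V // col v = false} := by
    rw [← Nat.card_eq_fintype_card, ← Nat.card_congr (Equiv.sumCompl fun v => col v = false),
      Nat.card_sum, ← Nat.card_congr e]
    ring
  have h2 := G.sum_degrees_eq_twice_card_edges
  simp only [h.deg, Finset.sum_const, Finset.card_univ, smul_eq_mul] at h2
  exact ⟨h1, by omega⟩

theorem euler' : nc h.px + nc h.py + nc h.pz = Nat.card {v : V // col v = false} + 2 := by
  have := h.euler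
  obtain ⟨h1, h2⟩ := h.card_white
  rw [h.numFaces_eq, h1, h2] at this
  omega

theorem yx_apply (w : {v : V // col v = false}) :
    (h.py (h.px w)).1 = h.opp (h.nxt w.1) := by
  rw [h.py_apply, h.px_apply, h.prv_nxt]

theorem transitive (S : Set {v : V // col v = false}) (hne : S.Nonempty)
    (hS : ∀ u ∈ S, h.px u ∈ S ∧ h.py u ∈ S) : S = Set.univ := by
  obtain ⟨A, hA⟩ : ∃ A : V → Prop, ∀ v, A v ↔
      ((∀ hv : col v = false, ⟨v, hv⟩ ∈ S) ∧
        ∀ hv : col (h.opp v) = false, ⟨h.opp v, hv⟩ ∈ S) := ⟨_, fun _ => Iff.rfl⟩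
  have hcl : ∀ u v, G.Adj u v → A u → A v := by
    intro u v ha hu
    rw [hA] at hu ⊢
    by_cases hw : col u = false
    · have hb : col v = true := by simp [h.col_adj ha, hw]
      have hu' := hu.1 hw
      refine ⟨fun hv => by simp [hb] at hv, fun hv => ?_⟩
      rcases h.adj_iff ha with rfl | rfl | rfl
      · have := (hS _ (hS _ hu').1).2
        convert this using 1
        exact Subtype.ext (h.yx_apply ⟨u, hw⟩).symm
      · exact (hS _ hu').2
      · convert hu' using 1
        exact Subtype.ext (h.opp_opp u)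
    · have hw' : col v = false := by simp [h.col_adj ha, hw]
      have ho : col (h.opp u) = false := by simp [h.col_opp, hw]
      have hu' := hu.2 ho
      refine ⟨fun hv => ?_, fun hv => by simp [h.col_opp, hw'] at hv⟩
      rcases h.adj_iff ha.symm with e | e | e
      · refine mem_of_apply_mem (f := h.py * h.px) (fun a ha => (hS _ (hS _ ha).1).2) ?_
        convert hu' using 1
        exact Subtype.ext (by rw [Perm.mul_apply, h.yx_apply]; simp [← e])
      · refine mem_of_apply_mem (f := h.py) (fun a ha => (hS _ ha).2) ?_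
        convert hu' using 1
        exact Subtype.ext (by rw [h.py_apply]; simp [← e])
      · convert hu' using 1
        exact Subtype.ext (show v = h.opp u by rw [e, h.opp_opp])
  obtain ⟨w, hw⟩ := hne
  refine Set.eq_univ_of_forall fun a => ?_
  obtain ⟨p⟩ := h.connected.preconnected w.1 a.1
  have key : ∀ {s t : V}, G.Walk s t → A s → A t := by
    intro s t q
    induction q with
    | nil => exact id
    | cons had q ih => exact fun hs => ih (hcl _ _ had hs)
  exact ((hA _).1 (key p ((hA _).2 ⟨fun _ => hw, fun hv => by simp [h.col_opp, w.2] at hv⟩))).1 a.2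

theorem no_sep {O : Set {v : V // col v = false}} {a b : {v : V // col v = false}}
    (ha : a ∈ O) (hb : b ∉ O)
    (hy : ∀ u, u ≠ a → u ≠ b → (u ∈ O ↔ h.py u ∈ O))
    (hyx : ∀ u, u ≠ a → u ≠ b → (u ∈ O ↔ h.py (h.px u) ∈ O)) : False := by
  obtain ⟨A, hA⟩ : ∃ A : V → Prop, ∀ v, A v ↔
      ((∀ hv : col v = false, ⟨v, hv⟩ ∈ O) ∧
        ∀ hv : col (h.opp v) = false, ⟨h.opp v, hv⟩ ∈ O) := ⟨_, fun _ => Iff.rfl⟩
  refine h.no_cut (A := {v | A v}) (a := a.1) (b := b.1) ?_ (u := h.opp a.1) (v := h.opp b.1)
    ?_ ?_ ?_ ?_ ?_ ?_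
  · intro u v had hua hub hva hvb hu
    simp only [Set.mem_ofPred_eq, hA] at hu ⊢
    by_cases hw : col u = false
    · have hb : col v = true := by simp [h.col_adj had, hw]
      have hu' := hu.1 hw
      have n1 : (⟨u, hw⟩ : {v : V // col v = false}) ≠ a := fun e => hua (congrArg Subtype.val e)
      have n2 : (⟨u, hw⟩ : {v : V // col v = false}) ≠ b := fun e => hub (congrArg Subtype.val e)
      refine ⟨fun hv => by simp [hb] at hv, fun hv => ?_⟩
      rcases h.adj_iff had with rfl | rfl | rfl
      · convert (hyx _ n1 n2).1 hu' using 1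
        exact Subtype.ext (h.yx_apply ⟨u, hw⟩).symm
      · exact (hy _ n1 n2).1 hu'
      · convert hu' using 1
        exact Subtype.ext (h.opp_opp u)
    · have hw' : col v = false := by simp [h.col_adj had, hw]
      have ho : col (h.opp u) = false := by simp [h.col_opp, hw]
      have hu' := hu.2 ho
      have n1 : (⟨v, hw'⟩ : {v : V // col v = false}) ≠ a := fun e => hva (congrArg Subtype.val e)
      have n2 : (⟨v, hw'⟩ : {v : V // col v = false}) ≠ b := fun e => hvb (congrArg Subtype.val e)
      refine ⟨fun hv => ?_, fun hv => by simp [h.col_opp, hw'] at hv⟩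
      rcases h.adj_iff had.symm with e | e | e
      · refine (hyx _ n1 n2).2 ?_
        convert hu' using 1
        exact Subtype.ext (by rw [h.yx_apply]; simp [← e])
      · refine (hy _ n1 n2).2 ?_
        convert hu' using 1
        exact Subtype.ext (by rw [h.py_apply]; simp [← e])
      · convert hu' using 1
        exact Subtype.ext (show v = h.opp u by rw [e, h.opp_opp])
  · simp only [Set.mem_ofPred_eq, hA]
    refine ⟨fun hv => by simp [h.col_opp, a.2] at hv, fun hv => ?_⟩
    convert ha using 1
    exact Subtype.ext (h.opp_opp a.1)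
  · intro e
    have := h.col_opp a.1
    rw [e, a.2] at this
    simp at this
  · intro e
    have := h.col_opp a.1
    rw [e, a.2, b.2] at this
    simp at this
  · simp only [Set.mem_ofPred_eq, hA]
    intro hh
    have hv : col (h.opp (h.opp b.1)) = false := by rw [h.opp_opp]; exact b.2
    refine hb ?_
    convert hh.2 hv using 1
    exact Subtype.ext (h.opp_opp b.1).symm
  · intro e
    have := h.col_opp b.1
    rw [e, a.2, b.2] at this
    simp at this
  · intro e
    have := h.col_opp b.1
    rw [e, b.2] at this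
    simp at this

theorem meet_y (a b : {v : V // col v = false}) (hx : h.px.SameCycle a b)
    (hy : h.py.SameCycle a b) : a = b := by
  by_contra hne
  have hyx : h.py * h.px = h.pz⁻¹ := by
    apply eq_inv_of_mul_eq_one_left
    rw [mul_assoc, ← mul_eq_one_comm, mul_assoc]
    exact (mul_assoc _ _ _).symm.trans h.pxzy
  have hc : nc h.py + nc h.px + nc (h.py * h.px) = Nat.card {v : V // col v = false} + 2 := by
    have := h.euler'
    rw [hyx, nc_inv]
    omega
  obtain ⟨O, ha, hb, hO⟩ := exists_cut hc
    (fun S hn hS => h.transitive S hn fun u hu => ⟨(hS u hu).2, (hS u hu).1⟩) hne hy hx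
  refine h.no_sep ha hb (fun u n1 n2 => ?_) fun u _ _ => (hO u).2.2
  have := (hO u).1
  rwa [Perm.mul_apply, swap_apply_of_ne_of_ne n1 n2] at this

theorem meet_z (a b : {v : V // col v = false}) (hx : h.px.SameCycle a b)
    (hz : h.pz.SameCycle a b) : a = b := by
  by_contra hne
  have hxz : h.px * h.pz = h.py⁻¹ := eq_inv_of_mul_eq_one_left h.pxzy
  have hc : nc h.px + nc h.pz + nc (h.px * h.pz) = Nat.card {v : V // col v = false} + 2 := by
    have := h.euler'
    rw [hxz, nc_inv]
    omega
  obtain ⟨O, ha, hb, hO⟩ := exists_cut hc (fun S hn hS => h.transitive S hn fun u hu => by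
    refine ⟨(hS u hu).1, mem_of_apply_mem (f := h.px * h.pz)
      (fun v hv => (hS _ (hS v hv).2).1) ?_⟩
    rw [hxz]; simpa using hu) hne hx hz
  have hy : ∀ u, u ∈ O ↔ h.py u ∈ O := fun u => by
    have := (hO (h.py u)).2.2
    rw [hxz] at this
    simpa using this.symm
  refine h.no_sep ha hb (fun u _ _ => hy u) fun u n1 n2 => ?_
  have := (hO u).1
  rw [Perm.mul_apply, swap_apply_of_ne_of_ne n1 n2] at this
  exact this.trans (hy _)

theorem c_injective : Function.Injective h.c := fun u v e => by rw [← h.c_fst u, e, h.c_fst]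

theorem isQuad_iff (w : {v : V // col v = false}) :
    IsQuad ρ (h.c w.1) ↔ h.px (h.px w) = w := by
  have e : (faceStep ρ ^ 4) (h.c w.1) = h.c (h.px (h.px w)).1 := by
    simp [pow_succ, Perm.mul_apply, h.step_c, h.px_apply]
  rw [IsQuad, e, h.c_injective.eq_iff, Subtype.ext_iff]

/-- The general criterion. -/
theorem hamiltonian (sd : G.Dart → Bool) (rk : G.Dart → ℕ)
    (hconst : ∀ d, sd (faceStep ρ d) = sd d ∧ rk (faceStep ρ d) = rk d)
    (hsep : ∀ d e, Big ρ C d → Big ρ C e → sd d = sd e → rk d = rk e → SameFace ρ d e)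
    (hshare : ∀ d e f f', Big ρ C d → Big ρ C f → Big ρ C f' → SameFace ρ d e →
      col d.fst = sd d → col e.fst = sd d →
      sd f = sd d → rk f < rk d → col f.fst = sd d → SameFace ρ f.symm d.symm →
      sd f' = sd d → rk f' < rk d → col f'.fst = sd d → SameFace ρ f'.symm e.symm →
      SameFace ρ d.symm e.symm) :
    G.IsHamiltonian := by
  classical
  have hsd : ∀ {d e}, SameFace ρ d e → sd d = sd e ∧ rk d = rk e := fun {d e} hde => by
    have := (le_of_step (f := faceStep ρ) (E := Setoid.ker fun d => (sd d, rk d)) fun u =>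
      (Prod.ext (hconst u).1 (hconst u).2 : (sd (faceStep ρ u), rk (faceStep ρ u)) =
        (sd u, rk u)).symm) hde
    exact ⟨congrArg Prod.fst this, congrArg Prod.snd this⟩
  have hquad : ∀ {d e}, SameFace ρ d e → ¬ IsQuad ρ d → ¬ IsQuad ρ e := by
    rintro d e ⟨i, rfl⟩ hd he
    apply hd
    refine (faceStep ρ ^ i).injective ?_
    rw [← Perm.mul_apply, (Commute.zpow_self (faceStep ρ) i).pow_right 4 |>.eq, Perm.mul_apply]
    exact he
  have hbig : ∀ {d e}, C e → SameFace ρ d e → Big ρ C d → Big ρ C e := fun hC hde hd =>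
    ⟨hC, hquad hde hd.2⟩
  have big_w : ∀ w : {v : V // col v = false}, h.px (h.px w) ≠ w → Big ρ C (h.c w.1) := fun w hw =>
    ⟨h.c_mem _, fun hq => hw ((h.isQuad_iff w).1 hq)⟩
  obtain ⟨g, hg, hcyc⟩ := exists_cycle (x := h.px) (y := h.py) (z := h.pz)
    (side := fun w => sd (h.c w.1) = true) (rk := fun w => rk (h.c w.1))
    h.pxzy h.transitive h.meet_y h.meet_z
    (fun u v huv => by rw [(hsd (h.face_c huv)).1]) (fun u v huv => (hsd (h.face_c huv)).2)
    (fun u v hu hv hs hr => by
      have hs' : sd (h.c u.1) = sd (h.c v.1) := Bool.eq_iff_iff.2 hs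
      have := h.lab_eq (hsep _ _ (big_w u hu) (big_w v hv) hs' hr)
      rw [h.lab_c, h.lab_c, dif_pos u.2, dif_pos v.2] at this
      exact Quotient.exact (Sum.inl.inj this))
    (fun u v f f' hu hus huv hf hfs hfr hfu hf' hfs' hfr' hfv => by
      have key : ∀ w : {v : V // col v = false},
          SameFace ρ (h.c (h.prv w.1)) (h.c w.1) ∧ col (h.c (h.prv w.1)).fst = true ∧
          (h.c (h.prv w.1)).symm = h.I w.1 := fun w => by
        refine ⟨?_, by simp [h.c_fst, h.col_prv, w.2], by rw [h.c_symm, h.nxt_prv]⟩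
        have := h.step_c (h.prv w.1)
        rw [h.nxt_prv] at this
        exact this ▸ rel_step
      obtain ⟨u1, u2, u3⟩ := key u
      obtain ⟨v1, v2, v3⟩ := key v
      obtain ⟨f1, f2, f3⟩ := key f
      obtain ⟨g1, g2, g3⟩ := key f'
      have := h.lab_eq (hshare (h.c (h.prv u.1)) (h.c (h.prv v.1)) (h.c (h.prv f.1))
        (h.c (h.prv f'.1)) (hbig (h.c_mem _) u1.symm (big_w u hu))
        (hbig (h.c_mem _) f1.symm (big_w f hf)) (hbig (h.c_mem _) g1.symm (big_w f' hf'))
        ((u1.trans (h.face_c huv)).trans v1.symm)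
        (by rw [u2, (hsd u1).1, hus]) (by rw [v2, (hsd u1).1, hus])
        (by rw [(hsd f1).1, (hsd u1).1, hus, hfs]) (by rw [(hsd f1).2, (hsd u1).2]; exact hfr)
        (by rw [f2, (hsd u1).1, hus]) (by rw [f3, u3]; exact h.face_I hfu)
        (by rw [(hsd g1).1, (hsd u1).1, hus, hfs']) (by rw [(hsd g1).2, (hsd u1).2]; exact hfr')
        (by rw [g2, (hsd u1).1, hus]) (by rw [g3, v3]; exact h.face_I hfv))
      rw [u3, v3, h.lab_I, h.lab_I, dif_pos u.2, dif_pos v.2] at this
      exact Quotient.exact (Sum.inl.inj (Sum.inr.inj this)))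
    (fun u v f f' hu hus huv hf hfs hfr hfu hf' hfs' hfr' hfv => by
      simp only [Bool.not_eq_true] at hus hfs hfs'
      have key : ∀ w : {v : V // col v = false}, SameFace ρ (h.c w.1).symm (h.R w.1) ∧
          col (h.c w.1).fst = false := fun w => by
        refine ⟨?_, by rw [h.c_fst]; exact w.2⟩
        have := h.step_I (h.nxt w.1)
        rw [h.prv_nxt] at this
        rw [h.c_symm]
        exact this ▸ rel_step
      obtain ⟨u1, u2⟩ := key u
      obtain ⟨v1, v2⟩ := key v
      obtain ⟨f1, f2⟩ := key f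
      obtain ⟨g1, g2⟩ := key f'
      have := hshare (h.c u.1) (h.c v.1) (h.c f.1) (h.c f'.1) (big_w u hu) (big_w f hf)
        (big_w f' hf') (h.face_c huv) (u2.trans hus.symm) (v2.trans hus.symm)
        (hfs.trans hus.symm) hfr (f2.trans hus.symm) ((f1.trans (h.face_R hfu)).trans u1.symm)
        (hfs'.trans hus.symm) hfr' (g2.trans hus.symm) ((g1.trans (h.face_R hfv)).trans v1.symm)
      have := h.lab_eq ((u1.symm.trans this).trans v1)
      rw [h.lab_R, h.lab_R, dif_pos u.2, dif_pos v.2] at this
      exact Quotient.exact (Sum.inr.inj (Sum.inr.inj this)))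
  -- the successor map of the cycle
  let S : V → V := fun v =>
    if hv : col v = false then (if g ⟨v, hv⟩ = h.py ⟨v, hv⟩ then h.prv v else h.nxt v)
    else h.opp v
  have hS : ∀ w : {v : V // col v = false}, h.opp (S w.1) = (g w).1 ∧ col (S w.1) = true := by
    intro w
    simp only [S, dif_pos w.2]
    split_ifs with he
    · exact ⟨by rw [he, h.py_apply], by simp [h.col_prv, w.2]⟩
    · refine ⟨?_, by simp [h.col_nxt, w.2]⟩
      rw [(hg w).resolve_left he, h.yx_apply]
  have hSb : ∀ v, col v = true → S v = h.opp v := fun v hv => by simp [S, hv]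
  have hsurj : Function.Surjective S := by
    intro v
    by_cases hv : col v = false
    · exact ⟨h.opp v, by rw [hSb _ (by simp [h.col_opp, hv]), h.opp_opp]⟩
    · obtain ⟨w, hw⟩ := g.surjective ⟨h.opp v, by simp [h.col_opp, hv]⟩
      refine ⟨w.1, ?_⟩
      have := (hS w).1
      rw [hw] at this
      exact h.oP.injective this
  refine hamiltonian_of_perm (by have := h.card; omega)
    (Equiv.ofBijective S ⟨Finite.injective_iff_surjective.2 hsurj, hsurj⟩) (fun v => ?_) ?_
  · show G.Adj v (S v)
    simp only [S]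
    split_ifs
    · exact h.adj_prv v
    · exact h.adj_nxt v
    · exact h.adj_opp v
  obtain ⟨F, hF⟩ : ∃ F : Perm V,
      F = Equiv.ofBijective S ⟨Finite.injective_iff_surjective.2 hsurj, hsurj⟩ := ⟨_, rfl⟩
  rw [← hF]
  have hFa : ∀ v, F v = S v := fun v => by rw [hF]; rfl
  have hW : ∀ u v : {v : V // col v = false}, F.SameCycle u.1 v.1 := fun u v =>
    le_of_step (f := g) (E := Setoid.comap Subtype.val (cyc F)) (fun w => by
      show F.SameCycle w.1 (g w).1
      rw [← (hS w).1, ← hSb _ (hS w).2, ← hFa, ← hFa]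
      exact rel_step.trans rel_step) (hcyc u v)
  have hto : ∀ v, ∃ w : {v : V // col v = false}, F.SameCycle v w.1 := fun v => by
    by_cases hv : col v = false
    · exact ⟨⟨v, hv⟩, SameCycle.refl F v⟩
    · refine ⟨⟨h.opp v, by simp [h.col_opp, hv]⟩, ?_⟩
      show F.SameCycle v (h.opp v)
      rw [← hSb v (by simpa using hv), ← hFa]
      exact rel_step
  intro a b
  obtain ⟨wa, hwa⟩ := hto a
  obtain ⟨wb, hwb⟩ := hto b
  exact (hwa.trans (hW wa wb)).trans hwb.symm

end Setup

end Vale.Agent.P039
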