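import Mathlib

/-!
Numbers of cycles of permutations: the genus inequality, and the cut found from two points lying
in a common cycle of two of the three permutations of a planar map.
-/

namespace Vale.Agent.P039

open Equiv Equiv.Perm

variable {α : Type*} [Finite α]

/-- The relation of two points lying on the same cycle. -/
abbrev cyc (f : Perm α) : Setoid α := Perm.SameCycle.setoid f

/-- The number of classes. -/
noncomputable def ncl (E : Setoid α) : ℕ := Nat.card (Quotient E)

omit [Finite α] in
theorem rel_step {f : Perm α} {u : α} : f.SameCycle u (f u) :=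
  sameCycle_apply_right.2 (SameCycle.refl f u)

theorem le_of_step {f : Perm α} {E : Setoid α} (h : ∀ u, E u (f u)) : cyc f ≤ E := by
  intro u v huv
  obtain ⟨i, rfl⟩ := SameCycle.exists_nat_pow_eq huv
  induction i with
  | zero => exact E.refl' u
  | succ i ih =>
    refine E.trans' (ih ⟨i, by simp⟩) ?_
    rw [pow_succ', Perm.mul_apply]
    exact h _

/-- Identify the classes of two points. -/
def jn (E : Setoid α) (a b : α) : Setoid α where
  r s t := E s t ∨ (E s a ∧ E b t) ∨ (E s b ∧ E a t)
  iseqv := by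
    constructor
    · exact fun u => Or.inl (E.refl' u)
    · rintro u v (h | ⟨h, h'⟩ | ⟨h, h'⟩)
      · exact Or.inl (E.symm' h)
      · exact Or.inr (Or.inr ⟨E.symm' h', E.symm' h⟩)
      · exact Or.inr (Or.inl ⟨E.symm' h', E.symm' h⟩)
    · rintro u v w (h | ⟨h, h'⟩ | ⟨h, h'⟩) (g | ⟨g, g'⟩ | ⟨g, g'⟩)
      · exact Or.inl (E.trans' h g)
      · exact Or.inr (Or.inl ⟨E.trans' h g, g'⟩)
      · exact Or.inr (Or.inr ⟨E.trans' h g, g'⟩)
      · exact Or.inr (Or.inl ⟨h, E.trans' h' g⟩)
      · exact Or.inr (Or.inl ⟨h, g'⟩)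
      · exact Or.inl (E.trans' h g')
      · exact Or.inr (Or.inr ⟨h, E.trans' h' g⟩)
      · exact Or.inl (E.trans' h g')
      · exact Or.inr (Or.inr ⟨h, g'⟩)

omit [Finite α] in
theorem le_jn (E : Setoid α) (a b : α) : E ≤ jn E a b := fun _ _ h => Or.inl h

omit [Finite α] in
theorem jn_pair (E : Setoid α) (a b : α) : jn E a b a b := Or.inr (Or.inl ⟨E.refl' a, E.refl' b⟩)

theorem ncl_le {E F : Setoid α} (h : E ≤ F) : ncl F ≤ ncl E :=
  Nat.card_le_card_of_surjective (Quotient.map id fun _ _ hab => h hab) fun q => by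
    induction q using Quotient.ind with
    | _ u => exact ⟨Quotient.mk E u, rfl⟩

theorem ncl_lt {E F : Setoid α} (h : E ≤ F) {a b : α} (h1 : F a b) (h2 : ¬ E a b) :
    ncl F < ncl E := by
  have := Fintype.ofFinite (Quotient E)
  have := Fintype.ofFinite (Quotient F)
  simp only [ncl, Nat.card_eq_fintype_card]
  refine Fintype.card_lt_of_surjective_not_injective (Quotient.map id fun _ _ hab => h hab)
    (fun q => by
      induction q using Quotient.ind with
      | _ u => exact ⟨Quotient.mk E u, rfl⟩) fun hi => ?_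
  exact h2 (Quotient.exact (hi (a₁ := Quotient.mk E a) (a₂ := Quotient.mk E b) (Quotient.sound h1)))

theorem ncl_jn (E : Setoid α) (a b : α) : ncl E ≤ ncl (jn E a b) + 1 := by
  classical
  let f : Quotient E → Option (Quotient (jn E a b)) := fun q =>
    if q = Quotient.mk E a then none else some (Quotient.map id (le_jn E a b) q)
  have hf : f.Injective := by
    intro p q
    induction p using Quotient.ind with
    | _ u =>
      induction q using Quotient.ind with
      | _ v =>
        intro h
        simp only [f] at h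
        split_ifs at h with hu hv
        · rw [hu, hv]
        · have h' : jn E a b u v := Quotient.exact (Option.some.inj h)
          rcases h' with h' | ⟨h', -⟩ | ⟨-, h'⟩
          · exact Quotient.sound h'
          · exact absurd (Quotient.sound h') hu
          · exact absurd (Quotient.sound (E.symm' h')) (by assumption)
  have := Nat.card_le_card_of_injective f hf
  simpa [ncl, Finite.card_option] using this

/-- The number of cycles, fixed points included. -/
noncomputable def nc (f : Perm α) : ℕ := ncl (cyc f)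

theorem nc_inv (f : Perm α) : nc f⁻¹ = nc f :=
  le_antisymm (ncl_le fun _ _ h => SameCycle.inv h) (ncl_le fun _ _ h => SameCycle.of_inv h)

theorem ncl_le_card (E : Setoid α) : ncl E ≤ Nat.card α :=
  Nat.card_le_card_of_surjective (Quotient.mk E) fun q => by
    induction q using Quotient.ind with
    | _ u => exact ⟨u, rfl⟩

theorem nc_one : nc (1 : Perm α) = Nat.card α :=
  le_antisymm (ncl_le_card _) (Nat.card_le_card_of_injective (Quotient.mk (cyc (1 : Perm α)))
    fun _ _ h => sameCycle_one.1 (Quotient.exact h))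

/-- From a point of the orbit to the point before it. -/
theorem rel_of_others {f : Perm α} {E : Setoid α} {w : α}
    (h : ∀ u, f.SameCycle u w → u ≠ w → E u (f u)) : E w (f w) := by
  have key : ∀ i : ℕ, (∀ j < i, (f ^ j) (f w) ≠ w) → E (f w) ((f ^ i) (f w)) := by
    intro i
    induction i with
    | zero => exact fun _ => E.refl' _
    | succ i ih =>
      intro hi
      refine E.trans' (ih fun j hj => hi j (by omega)) ?_
      rw [pow_succ', Perm.mul_apply]
      refine h _ ?_ (hi i (by omega))
      exact sameCycle_pow_left.2 (sameCycle_apply_left.2 (SameCycle.refl f w))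
  obtain ⟨i, hi⟩ := SameCycle.exists_nat_pow_eq
    (sameCycle_apply_left.2 (SameCycle.refl f w) : f.SameCycle (f w) w)
  classical
  have hex : ∃ i, (f ^ i) (f w) = w := ⟨i, hi⟩
  have := key (Nat.find hex) fun j hj => Nat.find_min hex hj
  rw [Nat.find_spec hex] at this
  exact E.symm' this

/-- Composing with a cycle through distinct cycles merges them. -/
theorem merge {f g x : Perm α} {O : Set α} (hout : ∀ u ∉ O, g u = f u)
    (hin : ∀ u ∈ O, g u = f (x u)) (hx : ∀ u ∈ O, x u ∈ O)
    (hinj : ∀ u ∈ O, ∀ v ∈ O, f.SameCycle u v → u = v) :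
    cyc f ≤ cyc g ∧ ∀ u ∈ O, g.SameCycle u (x u) := by
  classical
  have key : ∀ a ∈ O, ∀ i, (∀ j < i, (f ^ j) (f a) ≠ a) →
      g.SameCycle (f a) ((f ^ i) (f a)) := by
    intro a ha i
    induction i with
    | zero => exact fun _ => SameCycle.refl g _
    | succ i ih =>
      intro hi
      refine (ih fun j hj => hi j (by omega)).trans ?_
      rw [pow_succ', Perm.mul_apply, ← hout ((f ^ i) (f a)) fun hmem => hi i (by omega)
        (hinj _ hmem _ ha (sameCycle_pow_left.2 (sameCycle_apply_left.2 (SameCycle.refl f a))))]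
      exact rel_step
  have hback : ∀ a ∈ O, g.SameCycle (f a) a := by
    intro a ha
    have hex : ∃ i, (f ^ i) (f a) = a := SameCycle.exists_nat_pow_eq
      (sameCycle_apply_left.2 (SameCycle.refl f a))
    have := key a ha (Nat.find hex) fun j hj => Nat.find_min hex hj
    rwa [Nat.find_spec hex] at this
  refine ⟨le_of_step fun u => ?_, fun u hu => ?_⟩
  · by_cases hu : u ∈ O
    · exact (hback u hu).symm
    · exact hout u hu ▸ rel_step
  · exact (hin u hu ▸ rel_step : g.SameCycle u (f (x u))).trans (hback _ (hx u hu))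

variable [DecidableEq α]

omit [Finite α] in
theorem rel_swap {E : Setoid α} {a b : α} (h : E a b) (u : α) : E u (swap a b u) := by
  by_cases hua : u = a
  · subst hua; simpa using h
  by_cases hub : u = b
  · subst hub; simpa using E.symm' h
  rw [swap_apply_of_ne_of_ne hua hub]

theorem cyc_mul_swap_le {f : Perm α} {E : Setoid α} {a b : α} (hf : cyc f ≤ E) (h : E a b) :
    cyc (f * swap a b) ≤ E ∧ cyc (swap a b * f) ≤ E :=
  ⟨le_of_step fun u => E.trans' (rel_swap h u) (hf rel_step),
    le_of_step fun u => E.trans' (hf rel_step) (rel_swap h (f u))⟩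

theorem nc_le_mul_swap (f : Perm α) (a b : α) : nc f ≤ nc (f * swap a b) + 1 :=
  (ncl_jn (cyc f) a b).trans
    (Nat.add_le_add_right (ncl_le (cyc_mul_swap_le (le_jn _ a b) (jn_pair _ a b)).1) 1)

/-- A transposition of two points of different cycles loses a cycle. -/
theorem nc_mul_swap_lt {f : Perm α} {a b : α} (h : ¬ f.SameCycle a b) :
    nc (f * swap a b) < nc f := by
  obtain ⟨h1, h2⟩ := merge (f := f) (g := f * swap a b) (x := swap a b) (O := {a, b})
    (fun u hu => by
      simp only [Set.mem_insert_iff, Set.mem_singleton_iff, not_or] at hu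
      rw [Perm.mul_apply, swap_apply_of_ne_of_ne hu.1 hu.2])
    (fun u _ => rfl)
    (fun u hu => by rcases hu with rfl | rfl <;> simp)
    (fun u hu v hv huv => by
      rcases hu with rfl | rfl <;> rcases hv with rfl | rfl
      · rfl
      · exact absurd huv h
      · exact absurd huv.symm h
      · rfl)
  refine ncl_lt h1 (a := a) (b := b) ?_ h
  have := h2 a (Set.mem_insert _ _)
  rw [swap_apply_left] at this
  exact this

/-- A transposition of two points of one cycle separates them. -/
theorem not_sameCycle_mul_swap {f : Perm α} {a b : α} (hab : a ≠ b) (h : f.SameCycle a b) :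
    ¬ (f * swap a b).SameCycle a b := by
  have hex : ∃ k, (f ^ k) (f b) = a :=
    SameCycle.exists_nat_pow_eq (sameCycle_apply_left.2 h.symm)
  classical
  have hmin : ∀ j ≤ Nat.find hex, (f ^ j) (f b) ≠ b := by
    intro j hj he
    have h1 : (f ^ (Nat.find hex - j)) b = a := by
      calc (f ^ (Nat.find hex - j)) b = (f ^ (Nat.find hex - j)) ((f ^ j) (f b)) :=
            congrArg _ he.symm
        _ = (f ^ Nat.find hex) (f b) := by
            rw [← Perm.mul_apply, ← pow_add, Nat.sub_add_cancel hj]
        _ = a := Nat.find_spec hex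
    rcases Nat.eq_zero_or_pos (Nat.find hex - j) with h0 | h0
    · rw [h0] at h1; exact hab (by simpa using h1.symm)
    · refine Nat.find_min hex (m := Nat.find hex - j - 1) (by omega) ?_
      rw [← Perm.mul_apply, ← pow_succ, Nat.sub_add_cancel h0]
      exact h1
  have key : ∀ i : ℕ, ∃ j ≤ Nat.find hex, ((f * swap a b) ^ i) a = (f ^ j) (f b) := by
    intro i
    induction i with
    | zero => exact ⟨_, le_rfl, by simpa using (Nat.find_spec hex).symm⟩
    | succ i ih =>
      obtain ⟨j, hj, he⟩ := ih
      rw [pow_succ', Perm.mul_apply, he, Perm.mul_apply]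
      by_cases ha : (f ^ j) (f b) = a
      · exact ⟨0, Nat.zero_le _, by simp [ha]⟩
      · refine ⟨j + 1, ?_, ?_⟩
        · rcases hj.lt_or_eq with hlt | heq
          · omega
          · exact absurd (heq ▸ Nat.find_spec hex) ha
        · rw [swap_apply_of_ne_of_ne ha (hmin j hj), pow_succ', Perm.mul_apply]
  intro hc
  obtain ⟨i, hi⟩ := SameCycle.exists_nat_pow_eq hc
  obtain ⟨j, hj, he⟩ := key i
  exact hmin j hj (he.symm.trans hi)

/-- The genus inequality for two permutations. -/
theorem nc_add_le : ∀ (x y : Perm α),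
    nc x + nc y + nc (x * y) ≤ Nat.card α + 2 * ncl (cyc x ⊔ cyc y) := by
  suffices H : ∀ k, ∀ x y : Perm α, Nat.card α - nc y = k →
      nc x + nc y + nc (x * y) ≤ Nat.card α + 2 * ncl (cyc x ⊔ cyc y) from
    fun x y => H _ x y rfl
  intro k
  induction k using Nat.strong_induction_on with
  | _ k ih =>
    intro x y hk
    by_cases hy : ∀ u, y u = u
    · obtain rfl : y = 1 := Perm.ext hy
      have : nc x ≤ ncl (cyc x ⊔ cyc (1 : Perm α)) :=
        ncl_le (sup_le le_rfl (le_of_step fun u => (cyc x).refl' u))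
      rw [mul_one, nc_one]
      omega
    push Not at hy
    obtain ⟨a, ha⟩ := hy
    obtain ⟨b, hb⟩ : ∃ b, b = y a := ⟨_, rfl⟩
    obtain ⟨t, ht⟩ : ∃ t : Perm α, t = swap a b := ⟨_, rfl⟩
    have hyab : (cyc y) a b := by rw [hb]; exact rel_step
    have hfix : (t * y) a = a := by simp [ht, ← hb]
    have hlt : nc y < nc (t * y) := by
      refine ncl_lt (ht ▸ (cyc_mul_swap_le le_rfl hyab).2) hyab fun h => ?_
      exact ha (hb ▸ (SameCycle.eq_of_left h hfix).symm)
    have hle : nc (t * y) ≤ Nat.card α := ncl_le_card _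
    have IH := ih (Nat.card α - nc (t * y)) (by omega) (x * t) (t * y) rfl
    have hxy : x * t * (t * y) = x * y := by rw [ht, mul_assoc, swap_mul_self_mul]
    rw [hxy] at IH
    obtain ⟨E, hE⟩ : ∃ E, E = cyc (x * t) ⊔ cyc (t * y) := ⟨_, rfl⟩
    rw [← hE] at IH
    have hup : ∀ F : Setoid α, E ≤ F → F a b → cyc x ⊔ cyc y ≤ F := by
      intro F hF hab
      refine sup_le ?_ ?_
      · have := (cyc_mul_swap_le (f := x * t) ((hE ▸ le_sup_left).trans hF) hab).1
        rwa [ht, mul_swap_mul_self] at this
      · have := (cyc_mul_swap_le (f := t * y) ((hE ▸ le_sup_right).trans hF) hab).2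
        rwa [ht, swap_mul_self_mul] at this
    by_cases hab : E a b
    · have h1 := ncl_le (hup E le_rfl hab)
      have h2 : nc x ≤ nc (x * t) + 1 := ht ▸ nc_le_mul_swap x a b
      omega
    · have h1 := ncl_le (hup (jn E a b) (le_jn E a b) (jn_pair E a b))
      have h2 := ncl_jn E a b
      have h3 : nc x < nc (x * t) := by
        have := nc_mul_swap_lt (f := x * t) (a := a) (b := b) fun h => hab (((le_sup_left : cyc (x * t) ≤ cyc (x * t) ⊔ cyc (t * y)).trans hE.ge) (ht ▸ h))
        rwa [ht, mul_swap_mul_self, ← ht] at this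
      omega

/-- In a planar pair, two points in a common cycle of both give a separation. -/
theorem exists_cut {P Q : Perm α} (hc : nc P + nc Q + nc (P * Q) = Nat.card α + 2)
    (hconn : ∀ S : Set α, S.Nonempty → (∀ u ∈ S, P u ∈ S ∧ Q u ∈ S) → S = Set.univ)
    {a b : α} (hab : a ≠ b) (hP : P.SameCycle a b) (hQ : Q.SameCycle a b) :
    ∃ O : Set α, a ∈ O ∧ b ∉ O ∧ ∀ u, (u ∈ O ↔ (P * swap a b) u ∈ O) ∧
      (u ∈ O ↔ (swap a b * Q) u ∈ O) ∧ (u ∈ O ↔ (P * Q) u ∈ O) := by
  obtain ⟨t, ht⟩ : ∃ t : Perm α, t = swap a b := ⟨_, rfl⟩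
  rw [← ht]
  obtain ⟨E, hE⟩ : ∃ E, E = cyc (P * t) ⊔ cyc (t * Q) := ⟨_, rfl⟩
  have h1 : nc P < nc (P * t) :=
    ncl_lt (ht ▸ (cyc_mul_swap_le le_rfl hP).1) hP (ht ▸ not_sameCycle_mul_swap hab hP)
  have h2 : nc Q < nc (t * Q) := by
    rw [← nc_inv Q, ← nc_inv (t * Q), mul_inv_rev, ht, swap_inv]
    exact ncl_lt (cyc_mul_swap_le le_rfl hQ.inv).1 hQ.inv (not_sameCycle_mul_swap hab hQ.inv)
  have h3 := nc_add_le (P * t) (t * Q)
  rw [← hE, show P * t * (t * Q) = P * Q by rw [ht, mul_assoc, swap_mul_self_mul]] at h3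
  have hE2 : 2 ≤ ncl E := by omega
  have l1 : cyc (P * t) ≤ E := hE ▸ le_sup_left
  have l2 : cyc (t * Q) ≤ E := hE ▸ le_sup_right
  have l3 : ∀ u, E u ((P * Q) u) := fun u => by
    have e : (P * Q) u = (P * t) ((t * Q) u) := by simp [ht]
    rw [e]
    exact E.trans' (l2 rel_step) (l1 rel_step)
  have hnab : ¬ E a b := by
    intro h
    have hP' : cyc P ≤ E := by
      have := (cyc_mul_swap_le (f := P * t) l1 h).1
      rwa [ht, mul_swap_mul_self] at this
    have hQ' : cyc Q ≤ E := by
      have := (cyc_mul_swap_le (f := t * Q) l2 h).2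
      rwa [ht, swap_mul_self_mul] at this
    have huniv := hconn {u | E a u} ⟨a, E.refl' a⟩ fun u hu =>
      ⟨E.trans' hu (hP' rel_step), E.trans' hu (hQ' rel_step)⟩
    have : ncl E ≤ 1 := by
      have : Subsingleton (Quotient E) := ⟨fun p q => by
        induction p using Quotient.ind with
        | _ u =>
          induction q using Quotient.ind with
          | _ v =>
            have hu : u ∈ {u | E a u} := huniv ▸ Set.mem_univ u
            have hv : v ∈ {u | E a u} := huniv ▸ Set.mem_univ v
            exact Quotient.sound (E.trans' (E.symm' hu) hv)⟩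
      exact Finite.card_le_one_iff_subsingleton.2 this
    omega
  refine ⟨{u | E a u}, E.refl' a, hnab, fun u => ?_⟩
  have aux : ∀ v, E u v → (u ∈ {u | E a u} ↔ v ∈ {u | E a u}) :=
    fun v h => ⟨fun hu => E.trans' hu h, fun hv => E.trans' hv (E.symm' h)⟩
  exact ⟨aux _ (l1 rel_step), aux _ (l2 rel_step), aux _ (l3 u)⟩

end Vale.Agent.P039
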