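import Vale.Agent.P039.Merge

/-!
Plane maps of cubic bipartite graphs by rotation systems, and their description by three
bijections between the two colours.
-/

namespace Vale.Agent.P039

open Equiv Equiv.Perm

variable {V : Type*} [Fintype V] [DecidableEq V] {G : SimpleGraph V} [DecidableRel G.Adj]

/-- `ρ` is a rotation system of `G`: it cyclically permutes the darts leaving each vertex. -/
def IsRotation (ρ : Perm G.Dart) : Prop :=
  (∀ d, (ρ d).fst = d.fst) ∧ ∀ d e : G.Dart, d.fst = e.fst → ρ.SameCycle d e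

/-- The dart following a dart on the boundary of its face. -/
def faceStep (ρ : Perm G.Dart) : Perm G.Dart :=
  ρ * Function.Involutive.toPerm _ SimpleGraph.Dart.symm_involutive

/-- The two darts lie on the same face. -/
def SameFace (ρ : Perm G.Dart) (d e : G.Dart) : Prop :=
  (faceStep ρ).SameCycle d e

/-- The number of faces. -/
noncomputable def numFaces (ρ : Perm G.Dart) : ℕ :=
  Nat.card (Quotient (Perm.SameCycle.setoid (faceStep ρ)))

/-- The hypotheses: a cubic bipartite 3-vertex-connected plane graph with colour classes given by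
`col`, with a set `C` of faces that covers each vertex exactly once. -/
structure Setup (G : SimpleGraph V) [DecidableRel G.Adj] (ρ : Perm G.Dart) (col : V → Bool)
    (C : G.Dart → Prop) : Prop where
  rot : IsRotation ρ
  deg : ∀ v, G.degree v = 3
  bip : ∀ u v, G.Adj u v → col u ≠ col v
  euler : Fintype.card V + numFaces ρ = G.edgeFinset.card + 2
  card : 4 ≤ Fintype.card V
  conn : ∀ S : Finset V, S.card ≤ 2 → (G.induce {v | v ∉ S}).Connected
  face : ∀ d, C d ↔ C (faceStep ρ d)
  cover : ∀ v, ∃! d, C d ∧ d.fst = v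

variable {ρ : Perm G.Dart} {col : V → Bool} {C : G.Dart → Prop}

omit [Fintype V] [DecidableEq V] [DecidableRel G.Adj] in
theorem faceStep_apply (d : G.Dart) : faceStep ρ d = ρ d.symm := rfl

namespace Setup

variable (h : Setup G ρ col C)
include h

/-- The dart of `C` leaving a vertex. -/
noncomputable def c (v : V) : G.Dart := Classical.choose (h.cover v).exists

theorem c_mem (v : V) : C (h.c v) := (Classical.choose_spec (h.cover v).exists).1

theorem c_fst (v : V) : (h.c v).fst = v := (Classical.choose_spec (h.cover v).exists).2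

theorem c_eq {d : G.Dart} (hd : C d) : d = h.c d.fst :=
  (h.cover d.fst).unique ⟨hd, rfl⟩ ⟨h.c_mem _, h.c_fst _⟩

/-- The other dart leaving a vertex that is not on the boundary of its face in `C`. -/
noncomputable def R (v : V) : G.Dart := ρ (h.c v)

/-- The reverse of the dart of `C` entering a vertex. -/
noncomputable def I (v : V) : G.Dart := ρ (ρ (h.c v))

theorem R_fst (v : V) : (h.R v).fst = v := (h.rot.1 _).trans (h.c_fst v)

theorem I_fst (v : V) : (h.I v).fst = v := (h.rot.1 _).trans (h.R_fst v)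

theorem rho_orbit (v : V) : ρ (ρ (ρ (h.c v))) = h.c v ∧
    h.R v ≠ h.c v ∧ h.I v ≠ h.c v ∧ h.I v ≠ h.R v ∧
    ∀ d : G.Dart, d.fst = v → d = h.c v ∨ d = h.R v ∨ d = h.I v := by
  classical
  obtain ⟨d, hdd⟩ : ∃ d, d = h.c v := ⟨_, rfl⟩
  have hcard := G.dart_fst_fiber_card_eq_degree v
  rw [h.deg v] at hcard
  obtain ⟨F, hF⟩ : ∃ F, F = ({d : G.Dart | d.fst = v} : Finset G.Dart) := ⟨_, rfl⟩
  rw [← hF] at hcard
  have hmem : ∀ e, e ∈ F ↔ e.fst = v := by simp [hF]
  have hd : d ∈ F := (hmem d).2 (hdd ▸ h.c_fst v)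
  have hd1 : ρ d ∈ F := (hmem _).2 (hdd ▸ h.R_fst v)
  have hd2 : ρ (ρ d) ∈ F := (hmem _).2 (hdd ▸ h.I_fst v)
  have hsame : ∀ e ∈ F, ∀ e' ∈ F, ρ.SameCycle e e' := fun e he e' he' =>
    h.rot.2 e e' (((hmem e).1 he).trans ((hmem e').1 he').symm)
  have hperiod : ∀ e ∈ F, ρ e ≠ e ∧ ρ (ρ e) ≠ e := by
    intro e he
    constructor <;> intro heq
    · have : F ⊆ {e} := fun e' he' =>
        Finset.mem_singleton.2 ((hsame e he e' he').eq_of_left heq).symm
      have := Finset.card_le_card this
      simp at this; omega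
    · have hsub : F ⊆ {e, ρ e} := by
        intro e' he'
        obtain ⟨i, rfl⟩ := SameCycle.exists_nat_pow_eq (hsame e he e' he')
        clear he'
        induction i with
        | zero => simp
        | succ i ih =>
          rw [pow_succ', Perm.mul_apply]
          simp only [Finset.mem_insert, Finset.mem_singleton] at ih ⊢
          rcases ih with h1 | h1 <;> rw [h1]
          · exact Or.inr rfl
          · exact Or.inl heq
      have := (Finset.card_le_card hsub).trans Finset.card_le_two
      omega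
  have n1 := (hperiod d hd).1
  have n2 := (hperiod d hd).2
  have n3 : ρ (ρ d) ≠ ρ d := (hperiod _ hd1).1
  have hFeq : ({d, ρ d, ρ (ρ d)} : Finset G.Dart) = F := by
    refine Finset.eq_of_subset_of_card_le ?_ ?_
    · intro e he
      simp only [Finset.mem_insert, Finset.mem_singleton] at he
      rcases he with rfl | rfl | rfl <;> assumption
    · rw [hcard, Finset.card_eq_three.2 ⟨_, _, _, n1.symm, n2.symm, n3.symm, rfl⟩]
  have hd3 : ρ (ρ (ρ d)) ∈ F := (hmem _).2 ((h.rot.1 _).trans ((hmem _).1 hd2))
  rw [← hFeq] at hd3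
  simp only [Finset.mem_insert, Finset.mem_singleton] at hd3
  simp only [R, I, ← hdd]
  refine ⟨?_, n1, n2, n3, fun e he => ?_⟩
  · rcases hd3 with h3 | h3 | h3
    · exact h3
    · exact absurd (ρ.injective h3) n2
    · exact absurd (ρ.injective (ρ.injective h3)) n1
  · have := (hmem e).2 he
    rw [← hFeq] at this
    simpa using this

theorem rho_I (v : V) : ρ (h.I v) = h.c v := (h.rho_orbit v).1

/-- The next vertex on the face in `C`. -/
noncomputable def nxt (v : V) : V := (h.c v).snd

/-- The previous vertex on the face in `C`. -/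
noncomputable def prv (v : V) : V := (h.I v).snd

/-- The neighbour across the edge that is not in a face of `C`. -/
noncomputable def opp (v : V) : V := (h.R v).snd

theorem c_symm (v : V) : (h.c v).symm = h.I (h.nxt v) := by
  have hC := (h.face _).1 (h.c_mem v)
  rw [faceStep_apply] at hC
  have hf : (ρ (h.c v).symm).fst = h.nxt v := h.rot.1 _
  have := h.c_eq hC
  rw [hf] at this
  exact ρ.injective (this.trans (h.rho_I _).symm)

theorem prv_nxt (v : V) : h.prv (h.nxt v) = v := by
  rw [prv, ← h.c_symm]; exact h.c_fst v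

theorem nxt_surjective : Function.Surjective h.nxt := by
  apply Finite.surjective_of_injective
  exact fun a b hab => by rw [← h.prv_nxt a, hab, h.prv_nxt]

theorem nxt_prv (v : V) : h.nxt (h.prv v) = v := by
  obtain ⟨u, rfl⟩ := h.nxt_surjective v
  rw [h.prv_nxt]

theorem I_symm (v : V) : (h.I v).symm = h.c (h.prv v) := by
  conv_lhs => rw [← h.nxt_prv v, ← h.c_symm, SimpleGraph.Dart.symm_symm]

theorem R_symm (v : V) : (h.R v).symm = h.R (h.opp v) := by
  have hu : (h.R v).symm.fst = h.opp v := rfl
  rcases (h.rho_orbit (h.opp v)).2.2.2.2 _ hu with e | e | e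
  · have := congrArg SimpleGraph.Dart.symm e
    rw [SimpleGraph.Dart.symm_symm, h.c_symm] at this
    have e2 := congrArg (fun d : G.Dart => d.fst) this
    simp only [h.R_fst, h.I_fst] at e2
    rw [← e2] at this
    exact absurd this.symm (h.rho_orbit v).2.2.2.1
  · exact e
  · have := congrArg SimpleGraph.Dart.symm e
    rw [SimpleGraph.Dart.symm_symm, h.I_symm] at this
    have e2 := congrArg (fun d : G.Dart => d.fst) this
    simp only [h.R_fst, h.c_fst] at e2
    rw [← e2] at this
    exact absurd this (h.rho_orbit v).2.1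

theorem opp_opp (v : V) : h.opp (h.opp v) = v := by
  rw [opp, ← h.R_symm]; exact h.R_fst v

theorem step_c (v : V) : faceStep ρ (h.c v) = h.c (h.nxt v) := by
  rw [faceStep_apply, h.c_symm, h.rho_I]

theorem step_R (v : V) : faceStep ρ (h.R v) = h.I (h.opp v) := by
  rw [faceStep_apply, h.R_symm]; rfl

theorem step_I (v : V) : faceStep ρ (h.I v) = h.R (h.prv v) := by
  rw [faceStep_apply, h.I_symm]; rfl

theorem adj_nxt (v : V) : G.Adj v (h.nxt v) := by
  have := (h.c v).adj; rwa [h.c_fst] at this

theorem adj_prv (v : V) : G.Adj v (h.prv v) := by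
  have := (h.I v).adj; rwa [h.I_fst] at this

theorem adj_opp (v : V) : G.Adj v (h.opp v) := by
  have := (h.R v).adj; rwa [h.R_fst] at this

theorem adj_iff {v u : V} (ha : G.Adj v u) : u = h.nxt v ∨ u = h.prv v ∨ u = h.opp v := by
  rcases (h.rho_orbit v).2.2.2.2 ⟨(v, u), ha⟩ rfl with e | e | e
  · exact Or.inl (congrArg (fun d : G.Dart => d.snd) e)
  · exact Or.inr (Or.inr (congrArg (fun d : G.Dart => d.snd) e))
  · exact Or.inr (Or.inl (congrArg (fun d : G.Dart => d.snd) e))

theorem dist3 (v : V) : h.nxt v ≠ h.prv v ∧ h.nxt v ≠ h.opp v ∧ h.prv v ≠ h.opp v := by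
  have key : ∀ {d e : G.Dart}, d.fst = v → e.fst = v → d.snd = e.snd → d = e :=
    fun h1 h2 h3 => SimpleGraph.Dart.ext _ _ (Prod.ext (h1.trans h2.symm) h3)
  have ho := h.rho_orbit v
  exact ⟨fun e => ho.2.2.1 (key (h.I_fst v) (h.c_fst v) e.symm),
    fun e => ho.2.1 (key (h.R_fst v) (h.c_fst v) e.symm),
    fun e => ho.2.2.2.1 (key (h.I_fst v) (h.R_fst v) e)⟩

theorem col_adj {u v : V} (ha : G.Adj u v) : col v = !col u := by
  have := h.bip u v ha
  revert this
  cases col u <;> cases col v <;> simp

theorem connected : G.Connected := by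
  have h0 := h.conn ∅ (by simp)
  have e : {v : V | v ∉ (∅ : Finset V)} = Set.univ := by ext; simp
  rw [e] at h0
  exact (SimpleGraph.induceUnivIso G).connected_iff.1 h0

/-- A separation by two vertices is impossible. -/
theorem no_cut {A : Set V} {a b : V} (hadj : ∀ u v, G.Adj u v → u ≠ a → u ≠ b → v ≠ a → v ≠ b →
      u ∈ A → v ∈ A) {u v : V} (hu : u ∈ A) (hua : u ≠ a) (hub : u ≠ b) (hv : v ∉ A)
    (hva : v ≠ a) (hvb : v ≠ b) : False := by
  have hc := h.conn {a, b} Finset.card_le_two
  have hu' : u ∈ {w : V | w ∉ ({a, b} : Finset V)} := by simp [hua, hub]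
  have hv' : v ∈ {w : V | w ∉ ({a, b} : Finset V)} := by simp [hva, hvb]
  obtain ⟨p⟩ := hc.preconnected ⟨u, hu'⟩ ⟨v, hv'⟩
  have key : ∀ {s t : {w : V | w ∉ ({a, b} : Finset V)}},
      (G.induce {w : V | w ∉ ({a, b} : Finset V)}).Walk s t → (s : V) ∈ A → (t : V) ∈ A := by
    intro s t q
    induction q with
    | nil => exact id
    | @cons r s t had q ih =>
      intro hr
      have h1 := r.2
      have h2 := s.2
      simp only [Set.mem_ofPred_eq, Finset.mem_insert, Finset.mem_singleton, not_or] at h1 h2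
      exact ih (hadj _ _ had h1.1 h1.2 h2.1 h2.2 hr)
  exact hv (key p hu)

end Setup

end Vale.Agent.P039
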