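import Vale.Agent.P039.Cycles

/-!
Choosing the cycles to compose with: quadrilaterals cost nothing.
-/

namespace Vale.Agent.P039

open Equiv Equiv.Perm

variable {α : Type*} [Finite α] {x y z : Perm α} {side : α → Prop} {rk : α → ℕ}

/-- A point of the chosen large cycles of rank below `k`. -/
def Chosen (x : Perm α) (side : α → Prop) (rk : α → ℕ) (k : ℕ) (u : α) : Prop :=
  x (x u) ≠ u ∧ side u ∧ rk u < k

/-- A set of cycles whose composition with `y` coarsens the cycles of `y`. -/
def Valid (x y : Perm α) (T : Set α) : Prop :=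
  ∃ g : Perm α, (∀ u ∈ T, g u = y (x u)) ∧ (∀ u ∉ T, g u = y u) ∧ cyc y ≤ cyc g

omit [Finite α] in
theorem big_congr {u : α} : x (x (x u)) ≠ x u ↔ x (x u) ≠ u :=
  ⟨fun h e => h (congrArg x e), fun h e => h (x.injective e)⟩

theorem valid_add {T : Set α} {g : Perm α} (h1 : ∀ u ∈ T, g u = y (x u))
    (h2 : ∀ u ∉ T, g u = y u) (h3 : cyc y ≤ cyc g) {a : α}
    (hO : ∀ u, x.SameCycle a u → u ∉ T)
    (hinj : ∀ u v, x.SameCycle a u → x.SameCycle a v → g.SameCycle u v → u = v) :
    Valid x y (T ∪ {u | x.SameCycle a u}) := by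
  classical
  have := Fintype.ofFinite α
  have hin : ∀ u, x.SameCycle a u → (g * x.cycleOf a) u = g (x u) := fun u hu => by
    rw [Perm.mul_apply, cycleOf_apply, if_pos hu]
  have hout : ∀ u, ¬ x.SameCycle a u → (g * x.cycleOf a) u = g u := fun u hu => by
    rw [Perm.mul_apply, cycleOf_apply, if_neg hu]
  obtain ⟨hm, -⟩ := merge (f := g) (g := g * x.cycleOf a) (x := x) (O := {u | x.SameCycle a u})
    hout hin (fun u hu => sameCycle_apply_right.2 hu) (fun u hu v hv => hinj u v hu hv)
  refine ⟨g * x.cycleOf a, fun u hu => ?_, fun u hu => ?_, h3.trans hm⟩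
  · rcases hu with hu | hu
    · rw [hout u fun h => hO u h hu]; exact h1 u hu
    · rw [hin u hu, h2 _ (hO _ (sameCycle_apply_right.2 hu))]
  · simp only [Set.mem_union, not_or] at hu
    rw [hout u hu.2, h2 u hu.1]

/-- Two permutations coarsen into one cycle. -/
theorem exists_cycle (hxzy : x * z * y = 1)
    (hconn : ∀ S : Set α, S.Nonempty → (∀ u ∈ S, x u ∈ S ∧ y u ∈ S) → S = Set.univ)
    (hA : ∀ a b, x.SameCycle a b → y.SameCycle a b → a = b)
    (hB : ∀ a b, x.SameCycle a b → z.SameCycle a b → a = b)
    (hside : ∀ u v, x.SameCycle u v → (side u ↔ side v))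
    (hrk : ∀ u v, x.SameCycle u v → rk u = rk v)
    (hsep : ∀ u v, x (x u) ≠ u → x (x v) ≠ v → (side u ↔ side v) → rk u = rk v →
      x.SameCycle u v)
    (hS : ∀ u v f f', x (x u) ≠ u → side u → x.SameCycle u v →
      x (x f) ≠ f → side f → rk f < rk u → y.SameCycle f u →
      x (x f') ≠ f' → side f' → rk f' < rk u → y.SameCycle f' v → y.SameCycle u v)
    (hR : ∀ u v f f', x (x u) ≠ u → ¬ side u → x.SameCycle u v →
      x (x f) ≠ f → ¬ side f → rk f < rk u → z.SameCycle f u →
      x (x f') ≠ f' → ¬ side f' → rk f' < rk u → z.SameCycle f' v → z.SameCycle u v) :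
    ∃ g : Perm α, (∀ u, g u = y u ∨ g u = y (x u)) ∧ ∀ a b, g.SameCycle a b := by
  classical
  have hbig : ∀ u v, x.SameCycle u v → x (x u) ≠ u → x (x v) ≠ v := by
    intro u v huv hu
    obtain ⟨i, rfl⟩ := SameCycle.exists_nat_pow_eq huv
    clear huv
    induction i with
    | zero => exact hu
    | succ i ih => rw [pow_succ', Perm.mul_apply]; exact big_congr.2 ih
  have hV : ∀ k, Valid x y {u | Chosen x side rk k u} := by
    intro k
    induction k with
    | zero => exact ⟨y, fun u hu => absurd hu.2.2 (by omega), fun _ _ => rfl, le_rfl⟩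
    | succ k ih =>
      by_cases hex : ∃ a, x (x a) ≠ a ∧ side a ∧ rk a = k
      · obtain ⟨a, ha, has, hak⟩ := hex
        have e : {u | Chosen x side rk (k + 1) u} =
            {u | Chosen x side rk k u} ∪ {u | x.SameCycle a u} := by
          ext u
          simp only [Chosen, Set.mem_ofPred_eq, Set.mem_union]
          constructor
          · rintro ⟨h1, h2, h3⟩
            rcases (Nat.lt_succ_iff.1 h3).lt_or_eq with h | h
            · exact Or.inl ⟨h1, h2, h⟩
            · exact Or.inr (hsep a u ha h1 (by simp [has, h2]) (hak.trans h.symm))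
          · rintro (⟨h1, h2, h3⟩ | h)
            · exact ⟨h1, h2, by omega⟩
            · exact ⟨hbig a u h ha, (hside a u h).1 has, by rw [← hrk a u h]; omega⟩
        obtain ⟨g, h1, h2, h3⟩ := ih
        rw [e]
        refine valid_add h1 h2 h3 (fun u hu hc => ?_) fun u v hu hv huv => ?_
        · have := hrk a u hu
          have := hc.2.2
          omega
        have huv' : y.SameCycle u v ∨
            ((∃ f, Chosen x side rk k f ∧ y.SameCycle f u) ∧
              ∃ f, Chosen x side rk k f ∧ y.SameCycle f v) := by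
          have hle : cyc g ≤
              ⟨fun u v => y.SameCycle u v ∨ ((∃ f, Chosen x side rk k f ∧ y.SameCycle f u) ∧
                ∃ f, Chosen x side rk k f ∧ y.SameCycle f v),
                ⟨fun u => Or.inl (SameCycle.refl y u),
                 fun h => h.imp SameCycle.symm And.symm,
                 fun {p q r} h h' => by
                  rcases h with h | ⟨⟨f, hf, hfp⟩, f₁, hf₁, hfq⟩ <;>
                    rcases h' with h' | ⟨⟨f₂, hf₂, hf₂q⟩, f₃, hf₃, hf₃r⟩
                  · exact Or.inl (h.trans h')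
                  · exact Or.inr ⟨⟨f₂, hf₂, hf₂q.trans h.symm⟩, f₃, hf₃, hf₃r⟩
                  · exact Or.inr ⟨⟨f, hf, hfp⟩, f₁, hf₁, hfq.trans h'⟩
                  · exact Or.inr ⟨⟨f, hf, hfp⟩, f₃, hf₃, hf₃r⟩⟩⟩ := by
            refine le_of_step fun w => ?_
            by_cases hw : Chosen x side rk k w
            · refine Or.inr ⟨⟨w, hw, SameCycle.refl y w⟩, x w, ⟨big_congr.2 hw.1,
                (hside w (x w) rel_step).1 hw.2.1, ?_⟩, ?_⟩
              · rw [← hrk w (x w) rel_step]; exact hw.2.2
              · exact h1 w hw ▸ rel_step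
            · exact Or.inl (h2 w hw ▸ rel_step)
          exact hle huv
        refine hA u v (hu.symm.trans hv) ?_
        rcases huv' with h | ⟨⟨f, hf, hfu⟩, f', hf', hfv⟩
        · exact h
        have := hrk a u hu
        exact hS u v f f' (hbig a u hu ha) ((hside a u hu).1 has) (hu.symm.trans hv) hf.1 hf.2.1
          (by have := hf.2.2; omega) hfu hf'.1 hf'.2.1 (by have := hf'.2.2; omega) hfv
      · have e : {u | Chosen x side rk (k + 1) u} = {u | Chosen x side rk k u} := by
          ext u
          simp only [Chosen, Set.mem_ofPred_eq]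
          refine ⟨fun ⟨h1, h2, h3⟩ => ⟨h1, h2, ?_⟩, fun ⟨h1, h2, h3⟩ => ⟨h1, h2, by omega⟩⟩
          by_contra h
          exact hex ⟨u, h1, h2, by omega⟩
        rwa [e]
  obtain ⟨N, hN⟩ := (Set.finite_range rk).bddAbove
  have hN' : ∀ u, rk u ≤ N := fun u => hN ⟨u, rfl⟩
  let 𝒯 : Set (Set α) := {T | {u | Chosen x side rk (N + 1) u} ⊆ T ∧
    (∀ u ∈ T, Chosen x side rk (N + 1) u ∨ x (x u) = u) ∧
    (∀ u v, x.SameCycle u v → u ∈ T → v ∈ T) ∧ Valid x y T}
  have hne : ({u | Chosen x side rk (N + 1) u} : Set α) ∈ 𝒯 :=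
    ⟨subset_rfl, fun u hu => Or.inl hu, fun u v huv hu =>
      ⟨hbig u v huv hu.1, (hside u v huv).1 hu.2.1, hrk u v huv ▸ hu.2.2⟩, hV _⟩
  have : Nonempty 𝒯 := ⟨⟨_, hne⟩⟩
  obtain ⟨⟨T, hT1, hT2, hT3, g, hg1, hg2, hg3⟩, hmax⟩ :=
    Finite.exists_max fun T : 𝒯 => (T : Set α).ncard
  refine ⟨g, fun u => (em (u ∈ T)).elim (fun h => Or.inr (hg1 u h)) fun h => Or.inl (hg2 u h), ?_⟩
  have hT : ∀ u ∈ T, g.SameCycle u (x u) := fun u hu =>
    (hg1 u hu ▸ rel_step : g.SameCycle u (y (x u))).trans
      (hg3 (rel_step : y.SameCycle (x u) (y (x u)))).symm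
  have hquad : ∀ a, x (x a) = a → g.SameCycle a (x a) := by
    intro a ha
    by_cases haT : a ∈ T
    · exact hT a haT
    by_contra hna
    have hcl : ∀ u, x.SameCycle a u → u = a ∨ u = x a := by
      intro u hu
      obtain ⟨i, rfl⟩ := SameCycle.exists_nat_pow_eq hu
      clear hu
      induction i with
      | zero => exact Or.inl rfl
      | succ i ih =>
        rw [pow_succ', Perm.mul_apply]
        rcases ih with h | h <;> rw [h]
        · exact Or.inr rfl
        · exact Or.inl ha
    have hnew : T ∪ {u | x.SameCycle a u} ∈ 𝒯 := by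
      refine ⟨hT1.trans Set.subset_union_left, ?_, ?_,
        valid_add hg1 hg2 hg3 (fun u hu hc => haT (hT3 u a hu.symm hc)) ?_⟩
      · rintro u (hu | hu)
        · exact hT2 u hu
        · rcases hcl u hu with rfl | rfl
          · exact Or.inr ha
          · exact Or.inr (by rw [ha])
      · rintro u v huv (hu | hu)
        · exact Or.inl (hT3 u v huv hu)
        · exact Or.inr (hu.trans huv)
      · intro u v hu hv huv
        rcases hcl u hu with rfl | rfl <;> rcases hcl v hv with rfl | rfl
        · rfl
        · exact absurd huv hna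
        · exact absurd huv.symm hna
        · rfl
    have hsub : T ⊂ T ∪ {u | x.SameCycle a u} :=
      ⟨Set.subset_union_left, fun h => haT (h (Or.inr (SameCycle.refl x a)))⟩
    have := hmax ⟨_, hnew⟩
    have := Set.ncard_lt_ncard hsub
    simp only at *
    omega
  have hlow : ∀ j u, x (x u) ≠ u → ¬ side u → N - rk u = j → g.SameCycle u (x u) := by
    intro j
    induction j using Nat.strong_induction_on with
    | _ j ih =>
      intro w hw hws hj
      have hlocal : ∀ u, x.SameCycle w u →
          (¬ ∃ f, x (x f) ≠ f ∧ ¬ side f ∧ rk f < rk w ∧ z.SameCycle f u) →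
          g.SameCycle u (x u) := by
        intro u hu hsh
        have hgood : ∀ v, z.SameCycle v u → v ≠ u → g.SameCycle v (x v) := by
          intro v hv hvu
          by_cases hvb : x (x v) ≠ v
          · by_cases hvs : side v
            · exact hT v (hT1 ⟨hvb, hvs, by have := hN' v; omega⟩)
            · rcases lt_trichotomy (rk v) (rk w) with h | h | h
              · exact absurd ⟨v, hvb, hvs, h, hv⟩ hsh
              · exact absurd (hB v u ((hsep v w hvb hw (by simp [hvs, hws]) h).trans hu) hv) hvu
              · have := hN' v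
                exact ih (N - rk v) (by omega) v hvb hvs rfl
          · push Not at hvb
            exact hquad v hvb
        have hy : ∀ v, g.SameCycle (y (x v)) (x v) := fun v =>
          (hg3 (rel_step : y.SameCycle (x v) (y (x v)))).symm
        have hz : ∀ v, z.symm v = y (x v) := by
          intro v
          rw [Equiv.symm_apply_eq]
          apply x.injective
          simpa using (congrArg (fun e : Perm α => e (x v)) hxzy).symm
        have := rel_of_others (f := z) (E := cyc g) (w := z.symm u) fun v hv hvne => by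
          have h' : z v ≠ u := fun e => hvne (by rw [← e, Equiv.symm_apply_apply])
          have hv' : z.SameCycle (z v) u :=
            sameCycle_apply_left.2 (sameCycle_symm_apply_right.1 hv)
          have e : v = y (x (z v)) := by rw [← hz, Equiv.symm_apply_apply]
          have h'' : g.SameCycle (y (x (z v))) (z v) :=
            (hy (z v)).trans (hgood (z v) hv' h').symm
          rwa [← e] at h''
        rw [Equiv.apply_symm_apply, hz] at this
        exact (this.symm.trans (hy u) : g.SameCycle u (x u))
      by_cases hsh : ∃ f, x (x f) ≠ f ∧ ¬ side f ∧ rk f < rk w ∧ z.SameCycle f w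
      · obtain ⟨f, hf, hfs, hfr, hfw⟩ := hsh
        refine rel_of_others (f := x) (E := cyc g) fun v hv hvw => hlocal v hv.symm ?_
        rintro ⟨f', hf', hfs', hfr', hfv⟩
        exact hvw (hB v w hv (hR w v f f' hw hws hv.symm hf hfs hfr hfw hf' hfs' hfr' hfv).symm)
      · exact hlocal w (SameCycle.refl x w) hsh
  have hx : ∀ u, g.SameCycle u (x u) := by
    intro u
    by_cases hu : x (x u) ≠ u
    · by_cases hs : side u
      · exact hT u (hT1 ⟨hu, hs, by have := hN' u; omega⟩)
      · exact hlow _ u hu hs rfl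
    · push Not at hu
      exact hquad u hu
  intro a b
  have h := hconn {u | g.SameCycle a u} ⟨a, SameCycle.refl g a⟩ fun u hu =>
    ⟨hu.trans (hx u), hu.trans (hg3 (rel_step : y.SameCycle u (y u)))⟩
  exact (h ▸ Set.mem_univ b : b ∈ {u | g.SameCycle a u})

end Vale.Agent.P039
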